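import Vale.Agent.P112.H409.StStab

/-!
# P112, chapter (G): one group step integrated over the node set (`StAv`)
-/

open MeasureTheory
open scoped ENNReal

noncomputable section

namespace Vale.Agent.P112.H409

open Vale.Agent.P112.H646

/-- **Averaging over translations.**  `c t` is the translation at time `t`; points of `E0` come
from `E1`, points of `E1` go to `E2`, and on the path from a point of `E1` the mean of `f` is at
most the mean of `g`. -/
lemma avg {f g : ℝ × ℝ → ℝ≥0∞} (hf : Measurable f) (hg : Measurable g)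
    {E0 E1 E2 : Set (ℝ × ℝ)} (h0 : MeasurableSet E0) (h1 : MeasurableSet E1)
    (h2 : MeasurableSet E2) {c : ℝ → ℝ × ℝ} (hc : Measurable c) {l : ℝ} (hl : 0 < l)
    (h01 : ∀ z ∈ E0, ∀ t ∈ Set.Icc (0:ℝ) l, z - c t ∈ E1)
    (h12 : ∀ z ∈ E1, ∀ t ∈ Set.Icc (0:ℝ) l, z + c t ∈ E2)
    (hfg : ∀ z ∈ E1, ∫⁻ t in Set.Icc (0:ℝ) l, f (z + c t) ≤
      ∫⁻ t in Set.Icc (0:ℝ) l, g (z + c t)) :
    ∫⁻ z in E0, f z ≤ ∫⁻ z in E2, g z := by
  have hconst : ∀ K : ℝ≥0∞, ∫⁻ _ in Set.Icc (0:ℝ) l, K = K * ENNReal.ofReal l := by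
    intro K
    rw [setLIntegral_const, Real.volume_Icc, sub_zero]
  have hmf : Measurable fun p : (ℝ × ℝ) × ℝ => f (p.1 + c p.2) :=
    hf.comp (measurable_fst.add (hc.comp measurable_snd))
  have hmg : Measurable fun p : (ℝ × ℝ) × ℝ => g (p.1 + c p.2) :=
    hg.comp (measurable_fst.add (hc.comp measurable_snd))
  have hmf' : Measurable fun p : ℝ × (ℝ × ℝ) => f (p.2 + c p.1) :=
    hf.comp (measurable_snd.add (hc.comp measurable_fst))
  have step1 : (∫⁻ z in E0, f z) * ENNReal.ofReal l ≤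
      ∫⁻ t in Set.Icc (0:ℝ) l, ∫⁻ z in E1, f (z + c t) := by
    rw [← hconst]
    refine setLIntegral_mono' measurableSet_Icc ?_
    intro t ht
    rw [← lintegral_indicator h0, ← lintegral_indicator h1,
      ← lintegral_sub_right_eq_self (fun z => E1.indicator (fun z => f (z + c t)) z) (c t)]
    refine lintegral_mono ?_
    intro z
    by_cases hz : z ∈ E0
    · rw [Set.indicator_of_mem hz]
      show f z ≤ E1.indicator (fun z => f (z + c t)) (z - c t)
      rw [Set.indicator_of_mem (h01 z hz t ht), sub_add_cancel]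
    · rw [Set.indicator_of_notMem hz]
      exact zero_le
  have step2 : ∫⁻ t in Set.Icc (0:ℝ) l, ∫⁻ z in E1, f (z + c t) ≤
      ∫⁻ t in Set.Icc (0:ℝ) l, ∫⁻ z in E1, g (z + c t) := by
    rw [lintegral_lintegral_swap (f := fun t z => f (z + c t)) hmf'.aemeasurable,
      lintegral_lintegral_swap (f := fun t z => g (z + c t))
        (hmg.comp measurable_swap).aemeasurable]
    exact setLIntegral_mono' h1 hfg
  have step3 : ∫⁻ t in Set.Icc (0:ℝ) l, ∫⁻ z in E1, g (z + c t) ≤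
      (∫⁻ z in E2, g z) * ENNReal.ofReal l := by
    rw [← hconst]
    refine setLIntegral_mono' measurableSet_Icc ?_
    intro t ht
    rw [← lintegral_indicator h2, ← lintegral_indicator h1,
      ← lintegral_add_right_eq_self (fun z => E2.indicator (fun z => g z) z) (c t)]
    refine lintegral_mono ?_
    intro z
    by_cases hz : z ∈ E1
    · rw [Set.indicator_of_mem hz]
      show g (z + c t) ≤ E2.indicator (fun z => g z) (z + c t)
      rw [Set.indicator_of_mem (h12 z hz t ht)]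
    · rw [Set.indicator_of_notMem hz]
      exact zero_le
  have h3 := step1.trans (step2.trans step3)
  have hl0 : ENNReal.ofReal l ≠ 0 := by
    rw [Ne, ENNReal.ofReal_eq_zero, not_le]
    exact hl
  exact (ENNReal.mul_le_mul_iff_left hl0 ENNReal.ofReal_ne_top).mp h3

variable {ι κ : Type} [Fintype ι] [Fintype κ]

lemma measurableSet_bx (Z : Sys ι κ) (θ : ℝ) (b : κ) : MeasurableSet (Z.bx θ b) := by
  have h1 : Measurable fun z : ℝ × ℝ => z.1 := measurable_fst
  have h2 : Measurable fun z : ℝ × ℝ => z.2 - Z.s (Z.tb b) * z.1 :=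
    measurable_snd.sub (measurable_fst.const_mul _)
  exact (measurableSet_le measurable_const h1).inter ((measurableSet_lt h1 measurable_const).inter
    ((measurableSet_le measurable_const h2).inter (measurableSet_lt h2 measurable_const)))

lemma measurableSet_act (Z : Sys ι κ) (k : ι) : MeasurableSet {z | k ∈ Z.act z} := by
  have h : {z | k ∈ Z.act z} = ⋃ b : κ, ⋃ _ : Z.tb b = k, Z.bx 0 b := by
    ext z
    simp [mem_act]
  rw [h]
  exact MeasurableSet.iUnion fun b => MeasurableSet.iUnion fun _ => measurableSet_bx Z 0 b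

lemma measurableSet_Safe (Z : Sys ι κ) (θ : ℝ) (k : ι) : MeasurableSet {z | Z.Safe θ k z} := by
  have h : {z | Z.Safe θ k z} = ⋂ b : κ, ⋂ _ : Z.tb b = k, (Z.bx (-θ) b ∪ (Z.bx θ b)ᶜ) := by
    ext z
    simp [Sys.Safe]
  rw [h]
  exact MeasurableSet.iInter fun b => MeasurableSet.iInter fun _ =>
    (measurableSet_bx Z _ b).union (measurableSet_bx Z θ b).compl

lemma measurableSet_E (Z : Sys ι κ) (A : ℝ) (P : Finset ι) (θ : ℝ) :
    MeasurableSet (Z.E A P θ) := by
  classical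
  have h : Z.E A P θ = ⋂ k : ι, ⋂ _ : Near A Z.s P k,
      ({z | Z.Safe θ k z} ∩ (if k ∈ P then {z | k ∈ Z.act z} else {z | k ∈ Z.act z}ᶜ)) := by
    ext z
    simp only [Sys.E, Set.mem_ofPred_eq, Set.mem_iInter, Set.mem_inter_iff]
    refine forall_congr' fun k => forall_congr' fun _ => and_congr Iff.rfl ?_
    by_cases hk : k ∈ P
    · simp [hk]
    · simp [hk]
  rw [h]
  refine MeasurableSet.iInter fun k => MeasurableSet.iInter fun _ =>
    (measurableSet_Safe Z θ k).inter ?_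
  split_ifs
  · exact measurableSet_act Z k
  · exact (measurableSet_act Z k).compl

lemma measurable_a (Z : Sys ι κ) (i : ι) : Measurable (Z.a i) := by
  classical
  unfold Sys.a
  refine Finset.measurable_sum _ fun b _ => ?_
  refine Measurable.ite ?_ measurable_const measurable_const
  by_cases h : Z.tb b = i
  · simp only [h, true_and]
    exact measurableSet_bx Z 0 b
  · simp [h]

lemma measurable_G (Z : Sys ι κ) (P : Finset ι) : Measurable (Z.G P) := by
  unfold Sys.G ff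
  refine Finset.measurable_sum _ fun i _ => ?_
  refine (measurable_a Z i).mul ?_
  have h : Continuous fun z : ℝ × ℝ => Complex.exp (Complex.I * (Z.η * Z.s i * z.1 : ℝ)) := by
    fun_prop
  exact h.measurable

lemma measurable_gg (Z : Sys ι κ) (β : ℝ) (P : Finset ι) :
    Measurable fun z => gg β P (fun i => Z.a i z) := by
  unfold gg
  refine Measurable.pow_const ?_ β
  exact Finset.measurable_sum _ fun i _ => (measurable_a Z i).norm.pow_const _

lemma measurable_phi (Z : Sys ι κ) (β : ℝ) (P : Finset ι) : Measurable (Z.phi β P) := by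
  unfold Sys.phi
  exact (((measurable_G Z P).norm.pow_const 4).div ((measurable_gg Z β P).pow_const 2)).ennreal_ofReal

lemma measurable_sq (Z : Sys ι κ) (P : Finset ι) : Measurable (Z.sq P) := by
  unfold Sys.sq
  exact Finset.measurable_sum _ fun i _ => ((measurable_a Z i).norm.pow_const 2).ennreal_ofReal

omit [Fintype ι] in
lemma continuous_ff (η : ℝ) (s : ι → ℝ) (P : Finset ι) (c : ι → ℂ) : Continuous (ff η s P c) := by
  unfold ff
  refine continuous_finsetSum _ fun i _ => ?_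
  fun_prop

/-- the coefficients seen from the point with abscissa `x` -/
def cf (Z : Sys ι κ) (z : ℝ × ℝ) (i : ι) : ℂ :=
  Z.a i z * Complex.exp (Complex.I * (Z.η * Z.s i * z.1 : ℝ))

lemma norm_cf (Z : Sys ι κ) (z : ℝ × ℝ) (i : ι) : ‖cf Z z i‖ = ‖Z.a i z‖ := by
  unfold cf
  rw [norm_mul, mul_comm Complex.I, Complex.norm_exp_ofReal_mul_I, mul_one]

lemma gg_cf (Z : Sys ι κ) (β : ℝ) (P : Finset ι) {z z' : ℝ × ℝ}
    (h : ∀ i ∈ P, Z.a i z' = Z.a i z) : gg β P (fun i => Z.a i z') = gg β P (cf Z z) := by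
  unfold gg
  congr 1
  refine Finset.sum_congr rfl fun i hi => ?_
  show ‖Z.a i z'‖ ^ (1 / β) = ‖cf Z z i‖ ^ (1 / β)
  rw [h i hi, norm_cf]

lemma G_cf (Z : Sys ι κ) (P : Finset ι) {z z' : ℝ × ℝ} {t : ℝ} (ht : z'.1 = z.1 + t)
    (h : ∀ i ∈ P, Z.a i z' = Z.a i z) : Z.G P z' = ff Z.η Z.s P (cf Z z) t := by
  unfold Sys.G ff
  refine Finset.sum_congr rfl fun i hi => ?_
  show Z.a i z' * Complex.exp (Complex.I * (Z.η * Z.s i * z'.1 : ℝ)) = _
  rw [h i hi, ht]
  have h1 : Complex.exp (Complex.I * (Z.η * Z.s i * (z.1 + t) : ℝ)) =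
      Complex.exp (Complex.I * (Z.η * Z.s i * z.1 : ℝ)) *
        Complex.exp (Complex.I * (Z.η * Z.s i * t : ℝ)) := by
    rw [← Complex.exp_add]
    congr 1
    push_cast
    ring
  rw [h1]
  unfold cf
  ring

lemma phi_cf (Z : Sys ι κ) (β : ℝ) (P : Finset ι) {z z' : ℝ × ℝ} {t : ℝ} (ht : z'.1 = z.1 + t)
    (h : ∀ i ∈ P, Z.a i z' = Z.a i z) :
    Z.phi β P z' = ENNReal.ofReal (‖ff Z.η Z.s P (cf Z z) t‖ ^ 4 / gg β P (cf Z z) ^ 2) := by
  unfold Sys.phi
  rw [G_cf Z P ht h, gg_cf Z β P h]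

lemma lint_phi (Z : Sys ι κ) (β : ℝ) (P : Finset ι) (z : ℝ × ℝ) {l : ℝ} (hl : 0 ≤ l) :
    ∫⁻ t in Set.Icc (0:ℝ) l,
      ENNReal.ofReal (‖ff Z.η Z.s P (cf Z z) t‖ ^ 4 / gg β P (cf Z z) ^ 2) =
    ENNReal.ofReal ((∫ t in (0:ℝ)..l, ‖ff Z.η Z.s P (cf Z z) t‖ ^ 4) / gg β P (cf Z z) ^ 2) := by
  have hcont : Continuous fun t => ‖ff Z.η Z.s P (cf Z z) t‖ ^ 4 / gg β P (cf Z z) ^ 2 :=
    ((continuous_ff _ _ _ _).norm.pow 4).div_const _
  rw [← ofReal_integral_eq_lintegral_ofReal]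
  · congr 1
    rw [intervalIntegral.integral_of_le hl, integral_Icc_eq_integral_Ioc, integral_div]
  · exact hcont.integrableOn_Icc
  · exact Filter.Eventually.of_forall fun t => by positivity

lemma a_ne (Z : Sys ι κ) (hd : Z.Disj) {z : ℝ × ℝ} {i : ι} (hi : i ∈ Z.act z) : Z.a i z ≠ 0 := by
  obtain ⟨b, hb, hz⟩ := (mem_act Z).mp hi
  rw [← hb, a_eq Z hd hz]
  exact Z.val_ne b

theorem stAv_of (hseg : StSeg) : StAv := by
  obtain ⟨c0, hc0, hseg⟩ := hseg
  refine ⟨c0, hc0, ?_⟩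
  intro ι κ _ _ Z m K β A A2 ρ D Q δ θ P P' G hβ hβ1 hA hA2 hρ hdisj hsep hQ hδ h2δ hθ hP hPK
    hP'P hP' hD hh hAQ hG hU hGne hGd hGt hGs
  classical
  obtain ⟨i₀, hi₀⟩ := hP'
  have hη : 0 < |Z.η| := abs_pos.mpr Z.η_ne
  have hA2' : 0 < Real.sqrt A2 := Real.sqrt_pos.mpr (by linarith)
  set l : ℝ := Real.sqrt A2 / (|Z.η| * ρ) with hl_def
  have hl : 0 < l := by positivity
  have hlρ : |Z.η| * ρ * l = Real.sqrt A2 := by
    rw [hl_def]
    field_simp
  have hlρ' : |Z.η| * l * ρ = Real.sqrt A2 := by linarith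
  have key : ∀ θ' : ℝ, δ ≤ θ' → θ' ≤ 1 / 2 → ∀ z ∈ Z.E A P θ', ∀ t : ℝ, |t| ≤ l →
      ((z.1 + t, z.2 + Z.s i₀ * t) ∈ Z.E A P (θ' - δ)) ∧
      ∀ i ∈ P, Z.a i (z.1 + t, z.2 + Z.s i₀ * t) = Z.a i z := by
    intro θ' h1 h2 z hz t ht
    refine stStab ι κ Z A (D * ρ) Q l δ θ' P hA hdisj hsep hQ hl.le hδ h1 h2 hP hD ?_ ?_ z hz i₀
      (hP'P hi₀) t ht
    · intro b
      have h3 := hh b
      have h4 : |Z.η| * (l * ((A + 1) * (D * ρ))) ≤ |Z.η| * (δ * Z.h b) := by
        calc |Z.η| * (l * ((A + 1) * (D * ρ))) = (|Z.η| * l * ρ) * ((A + 1) * D) := by ring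
          _ = Real.sqrt A2 * ((A + 1) * D) := by rw [hlρ']
          _ ≤ δ * (|Z.η| * Z.h b) := h3
          _ = |Z.η| * (δ * Z.h b) := by ring
      exact le_of_mul_le_mul_left h4 hη
    · calc |Z.η| * l * ((A + 1) * (D * ρ)) = (|Z.η| * l * ρ) * ((A + 1) * D) := by ring
        _ = Real.sqrt A2 * ((A + 1) * D) := by rw [hlρ']
        _ ≤ δ * Q := hAQ
  set C : ℝ≥0∞ := ENNReal.ofReal (14 * K ^ 3 / Real.sqrt A2) with hC
  have hmg : Measurable fun z => (∑ g ∈ G, Z.phi β g z) + C * Z.sq P' z :=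
    (Finset.measurable_sum _ fun g _ => measurable_phi Z β g).add
      ((measurable_sq Z P').const_mul C)
  have hsub : ∀ g ∈ G, g ⊆ P' := by
    intro g hg i hi
    rw [← hU]
    unfold U
    rw [Finset.mem_biUnion]
    exact ⟨g, hg, hi⟩
  have hmain : ∫⁻ z in Z.E A P θ, Z.phi β P' z ≤
      ∫⁻ z in Z.E A P (θ - 2 * δ), ((∑ g ∈ G, Z.phi β g z) + C * Z.sq P' z) := by
    refine avg (measurable_phi Z β P') hmg (measurableSet_E Z A P θ)
      (measurableSet_E Z A P (θ - δ)) (measurableSet_E Z A P (θ - 2 * δ))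
      (c := fun t => (t, Z.s i₀ * t)) (by fun_prop) hl ?_ ?_ ?_
    · intro z hz t ht
      have h1 := (key θ (by linarith) hθ z hz (-t) (by
        rw [abs_neg, abs_of_nonneg ht.1]; exact ht.2)).1
      have h2 : z - (t, Z.s i₀ * t) = (z.1 + -t, z.2 + Z.s i₀ * -t) := by
        ext
        · simp [sub_eq_add_neg]
        · simp [sub_eq_add_neg]
      rw [h2]
      exact h1
    · intro z hz t ht
      have h1 := (key (θ - δ) (by linarith) (by linarith) z hz t (by
        rw [abs_of_nonneg ht.1]; exact ht.2)).1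
      have h2 : θ - δ - δ = θ - 2 * δ := by ring
      rw [h2] at h1
      exact h1
    · intro z hz
      have ha : ∀ t ∈ Set.Icc (0:ℝ) l, ∀ i ∈ P, Z.a i (z + (t, Z.s i₀ * t)) = Z.a i z := by
        intro t ht i hi
        exact (key (θ - δ) (by linarith) (by linarith) z hz t (by
          rw [abs_of_nonneg ht.1]; exact ht.2)).2 i hi
      have hact : ∀ i ∈ P, i ∈ Z.act z := fun i hi => (hz i (near_self A Z.s hi)).2.mpr hi
      have hL : ∀ g : Finset ι, g ⊆ P → ∫⁻ t in Set.Icc (0:ℝ) l, Z.phi β g (z + (t, Z.s i₀ * t)) =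
          ENNReal.ofReal ((∫ t in (0:ℝ)..l, ‖ff Z.η Z.s g (cf Z z) t‖ ^ 4) /
            gg β g (cf Z z) ^ 2) := by
        intro g hg
        rw [← lint_phi Z β g z hl.le]
        refine setLIntegral_congr_fun measurableSet_Icc ?_
        intro t ht
        exact phi_cf Z β g (t := t) rfl fun i hi => ha t ht i (hg hi)
      have hsq : ∀ t ∈ Set.Icc (0:ℝ) l, Z.sq P' (z + (t, Z.s i₀ * t)) =
          ENNReal.ofReal (∑ i ∈ P', ‖cf Z z i‖ ^ 2) := by
        intro t ht
        unfold Sys.sq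
        rw [ENNReal.ofReal_sum_of_nonneg fun i _ => by positivity]
        refine Finset.sum_congr rfl fun i hi => ?_
        rw [ha t ht i (hP'P hi), norm_cf]
      rw [hL P' hP'P]
      have hR : ∫⁻ t in Set.Icc (0:ℝ) l, ((∑ g ∈ G, Z.phi β g (z + (t, Z.s i₀ * t))) +
            C * Z.sq P' (z + (t, Z.s i₀ * t))) =
          (∑ g ∈ G, ENNReal.ofReal ((∫ t in (0:ℝ)..l, ‖ff Z.η Z.s g (cf Z z) t‖ ^ 4) /
            gg β g (cf Z z) ^ 2)) +
          C * ENNReal.ofReal (∑ i ∈ P', ‖cf Z z i‖ ^ 2) * ENNReal.ofReal l := by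
        have hmt : Measurable fun t : ℝ => z + (t, Z.s i₀ * t) := by fun_prop
        have hme : ∀ g ∈ G, Measurable fun t : ℝ => Z.phi β g (z + (t, Z.s i₀ * t)) :=
          fun g _ => (measurable_phi Z β g).comp hmt
        rw [lintegral_add_left (Finset.measurable_sum _ hme), lintegral_finsetSum _ hme]
        congr 1
        · exact Finset.sum_congr rfl fun g hg => hL g ((hsub g hg).trans hP'P)
        · rw [setLIntegral_congr_fun (g := fun _ => C * ENNReal.ofReal (∑ i ∈ P', ‖cf Z z i‖ ^ 2))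
            measurableSet_Icc (fun t ht => by
              show C * Z.sq P' (z + (t, Z.s i₀ * t)) = _
              rw [hsq t ht]), setLIntegral_const, Real.volume_Icc, sub_zero]
      rw [hR]
      have hs := hseg ι m K β A2 ρ Z.η l Z.s (cf Z z) P' G hβ hβ1 hA2 hρ Z.η_ne hl hlρ
        ((Finset.card_le_card hP'P).trans hPK) hG hU hGne hGd hGt hGs (by
          intro i hi
          have h1 := a_ne Z hdisj (hact i (hP'P hi))
          rw [← norm_ne_zero_iff, norm_cf, norm_ne_zero_iff]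
          exact h1)
      refine (ENNReal.ofReal_le_ofReal hs).trans ?_
      have hgg : ∀ g ∈ G, 0 ≤ (∫ t in (0:ℝ)..l, ‖ff Z.η Z.s g (cf Z z) t‖ ^ 4) /
          gg β g (cf Z z) ^ 2 := by
        intro g _
        refine div_nonneg (intervalIntegral.integral_nonneg hl.le fun t _ => by positivity)
          (by positivity)
      rw [ENNReal.ofReal_add (Finset.sum_nonneg hgg) (by positivity),
        ENNReal.ofReal_sum_of_nonneg hgg]
      refine add_le_add le_rfl ?_
      rw [hC, ← ENNReal.ofReal_mul (by positivity), ← ENNReal.ofReal_mul (by positivity)]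
      refine ENNReal.ofReal_le_ofReal (le_of_eq ?_)
      ring
  refine hmain.trans (le_of_eq ?_)
  rw [lintegral_add_left (Finset.measurable_sum _ fun g _ => measurable_phi Z β g),
    lintegral_finsetSum _ fun g _ => measurable_phi Z β g,
    lintegral_const_mul C (measurable_sq Z P')]

end Vale.Agent.P112.H409
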