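import Vale.Agent.P112.H646.Defs

/-!
# P112, chapter (G): stability of the node sets along short segments (`StStab`)
-/

open MeasureTheory
open scoped ENNReal

noncomputable section

namespace Vale.Agent.P112.H409

open Vale.Agent.P112.H646

variable {ι κ : Type} [Fintype ι] [Fintype κ]

/-- larger margins give larger boxes -/
lemma bx_mono (Z : Sys ι κ) {θ θ' : ℝ} (h : θ ≤ θ') (b : κ) : Z.bx θ b ⊆ Z.bx θ' b := by
  intro z hz
  obtain ⟨h1, h2, h3, h4⟩ := hz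
  have hl := mul_le_mul_of_nonneg_right h (Z.lam_pos b).le
  have hh := mul_le_mul_of_nonneg_right h (Z.h_pos b).le
  exact ⟨by linarith, by linarith, by linarith, by linarith⟩

/-- a small displacement -/
lemma bx_move (Z : Sys ι κ) {θ δ t σ : ℝ} {b : κ} {z : ℝ × ℝ} (hz : z ∈ Z.bx θ b)
    (h1 : |t| ≤ δ * Z.lam b) (h2 : |(σ - Z.s (Z.tb b)) * t| ≤ δ * Z.h b) :
    (z.1 + t, z.2 + σ * t) ∈ Z.bx (θ + δ) b := by
  obtain ⟨g1, g2, g3, g4⟩ := hz
  have h1' := abs_le.mp h1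
  have h2' := abs_le.mp h2
  refine ⟨?_, ?_, ?_, ?_⟩
  · show Z.x0 b - (θ + δ) * Z.lam b ≤ z.1 + t
    linarith [h1'.1]
  · show z.1 + t < Z.x0 b + Z.lam b + (θ + δ) * Z.lam b
    linarith [h1'.2]
  · show Z.y0 b - (θ + δ) * Z.h b ≤ z.2 + σ * t - Z.s (Z.tb b) * (z.1 + t)
    linarith [h2'.1]
  · show z.2 + σ * t - Z.s (Z.tb b) * (z.1 + t) < Z.y0 b + Z.h b + (θ + δ) * Z.h b
    linarith [h2'.2]

lemma mem_act (Z : Sys ι κ) {z : ℝ × ℝ} {i : ι} :
    i ∈ Z.act z ↔ ∃ b, Z.tb b = i ∧ z ∈ Z.bx 0 b := by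
  classical
  simp [Sys.act]

/-- the amplitude is the value on the box -/
lemma a_eq (Z : Sys ι κ) (hd : Z.Disj) {z : ℝ × ℝ} {b : κ} (hz : z ∈ Z.bx 0 b) :
    Z.a (Z.tb b) z = Z.val b := by
  classical
  unfold Sys.a
  rw [Finset.sum_eq_single b]
  · rw [if_pos ⟨rfl, hz⟩]
  · intro b' _ hb'
    rw [if_neg]
    rintro ⟨e, hz'⟩
    exact Set.disjoint_left.mp (hd b' b e hb') hz' hz
  · intro hb
    exact absurd (Finset.mem_univ b) hb

omit [Fintype ι] in
lemma near_self (A : ℝ) (s : ι → ℝ) {P : Finset ι} {k : ι} (hk : k ∈ P) : Near A s P k :=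
  ⟨k, hk, k, hk, k, hk, by simp⟩

theorem stStab : StStab := by
  intro ι κ _ _ Z A D Q l δ θ P hA hdisj hsep hQ hl hδ hδθ hθ hP hD hlh hlQ z hz i₀ hi₀ t ht
  have hθ0 : 0 ≤ θ := hδ.trans hδθ
  have hη : 0 < |Z.η| := abs_pos.mpr Z.η_ne
  -- the box of an element of `P` at `z`
  have hbox : ∀ i ∈ P, ∃ b, Z.tb b = i ∧ z ∈ Z.bx (-θ) b := by
    intro i hi
    obtain ⟨hs, ha⟩ := hz i (near_self A Z.s hi)
    obtain ⟨b, hb, hzb⟩ := (mem_act Z).mp (ha.mpr hi)
    refine ⟨b, hb, ?_⟩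
    rcases hs b hb with h | h
    · exact h
    · exact absurd (bx_mono Z hθ0 b hzb) h
  have hother : ∀ k, ∃ j ∈ P, j ≠ k := by
    intro k
    have h1 : 1 < P.card := hP
    obtain ⟨x, hx, y, hy, hxy⟩ := Finset.one_lt_card.mp h1
    by_cases h : x = k
    · exact ⟨y, hy, fun e => hxy (h.trans e.symm)⟩
    · exact ⟨x, hx, h⟩
  -- positivity of D
  have hDpos : 0 < D := by
    obtain ⟨j, hj, hji⟩ := hother i₀
    obtain ⟨b, hb, hzb⟩ := hbox i₀ hi₀
    obtain ⟨b', hb', hzb'⟩ := hbox j hj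
    have h1 := hsep b b' (by rw [hb, hb']; exact hji.symm)
      ⟨z, bx_mono Z (by linarith) b hzb, bx_mono Z (by linarith) b' hzb'⟩
    by_contra hc
    have h2 : |Z.s i₀ - Z.s j| = 0 :=
      le_antisymm ((hD i₀ hi₀ j hj).trans (not_lt.mp hc)) (abs_nonneg _)
    rw [hb, hb', h2] at h1
    simp at h1
    linarith
  have hAD : 0 < (A + 1) * D := by positivity
  -- a lower bound of the lengths gives `|t| ≤ δ lam`
  have hlen : ∀ b, Q ≤ |Z.η| * ((A + 1) * D) * Z.lam b → l ≤ δ * Z.lam b := by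
    intro b hb
    have h1 : |Z.η| * l * ((A + 1) * D) ≤ δ * (|Z.η| * ((A + 1) * D) * Z.lam b) :=
      hlQ.trans (mul_le_mul_of_nonneg_left hb hδ)
    have h2 : (|Z.η| * ((A + 1) * D)) * l ≤ (|Z.η| * ((A + 1) * D)) * (δ * Z.lam b) := by
      linarith
    exact le_of_mul_le_mul_left h2 (by positivity)
  -- vertical displacement
  have hvert : ∀ b, |Z.s i₀ - Z.s (Z.tb b)| ≤ (A + 1) * D →
      |(Z.s i₀ - Z.s (Z.tb b)) * t| ≤ δ * Z.h b := by
    intro b hb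
    rw [abs_mul]
    calc |Z.s i₀ - Z.s (Z.tb b)| * |t| ≤ (A + 1) * D * l :=
          mul_le_mul hb ht (abs_nonneg _) hAD.le
      _ = l * ((A + 1) * D) := by ring
      _ ≤ δ * Z.h b := hlh b
  -- the elements of `P` stay in their boxes
  have hstay : ∀ i ∈ P, ∃ b, Z.tb b = i ∧ z ∈ Z.bx (-θ) b ∧
      (z.1 + t, z.2 + Z.s i₀ * t) ∈ Z.bx (-(θ - δ)) b := by
    intro i hi
    obtain ⟨b, hb, hzb⟩ := hbox i hi
    refine ⟨b, hb, hzb, ?_⟩
    obtain ⟨j, hj, hji⟩ := hother i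
    obtain ⟨b', hb', hzb'⟩ := hbox j hj
    have h1 := hsep b b' (by rw [hb, hb']; exact hji.symm)
      ⟨z, bx_mono Z (by linarith) b hzb, bx_mono Z (by linarith) b' hzb'⟩
    have h2 : Q ≤ |Z.η| * ((A + 1) * D) * Z.lam b := by
      refine h1.trans ?_
      have h3 : |Z.s (Z.tb b) - Z.s (Z.tb b')| ≤ (A + 1) * D := by
        rw [hb, hb']
        refine (hD i hi j hj).trans ?_
        nlinarith
      have h4 : min (Z.lam b) (Z.lam b') ≤ Z.lam b := min_le_left _ _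
      exact mul_le_mul (mul_le_mul_of_nonneg_left h3 hη.le) h4
        (le_min (Z.lam_pos b).le (Z.lam_pos b').le) (by positivity)
    have h5 := bx_move Z (σ := Z.s i₀) (t := t) (δ := δ) hzb (ht.trans (hlen b h2)) (hvert b (by
      rw [hb]
      refine (hD i₀ hi₀ i hi).trans ?_
      nlinarith))
    have h6 : -θ + δ = -(θ - δ) := by ring
    rwa [h6] at h5
  -- back motion for near tubes
  have hback : ∀ k, Near A Z.s P k → ∀ b, Z.tb b = k →
      (z.1 + t, z.2 + Z.s i₀ * t) ∈ Z.bx (θ - δ) b →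
      z ∈ Z.bx (-θ) b ∧ (z.1 + t, z.2 + Z.s i₀ * t) ∈ Z.bx (-(θ - δ)) b := by
    intro k hk b hb hzt
    obtain ⟨p, hp, q, hq, r, hr, hpqr⟩ := hk
    have hkr : |Z.s r - Z.s k| ≤ A * D :=
      hpqr.trans (mul_le_mul_of_nonneg_left (hD p hp q hq) (by linarith))
    have hkj : ∀ j ∈ P, |Z.s j - Z.s k| ≤ (A + 1) * D := by
      intro j hj
      have h1 := abs_sub_le (Z.s j) (Z.s r) (Z.s k)
      have h2 := hD j hj r hr
      nlinarith
    obtain ⟨j, hj, hjk⟩ := hother k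
    obtain ⟨b', hb', hzb', hztb'⟩ := hstay j hj
    have h1 := hsep b b' (by rw [hb, hb']; exact hjk.symm)
      ⟨_, bx_mono Z (by linarith) b hzt, bx_mono Z (by linarith) b' hztb'⟩
    have h2 : Q ≤ |Z.η| * ((A + 1) * D) * Z.lam b := by
      refine h1.trans ?_
      have h3 : |Z.s (Z.tb b) - Z.s (Z.tb b')| ≤ (A + 1) * D := by
        rw [hb, hb', abs_sub_comm]
        exact hkj j hj
      have h4 : min (Z.lam b) (Z.lam b') ≤ Z.lam b := min_le_left _ _
      exact mul_le_mul (mul_le_mul_of_nonneg_left h3 hη.le) h4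
        (le_min (Z.lam_pos b).le (Z.lam_pos b').le) (by positivity)
    have hv := hvert b (by rw [hb]; exact hkj i₀ hi₀)
    have h5 := bx_move Z (σ := Z.s i₀) (t := -t) (δ := δ) hzt
      (by rw [abs_neg]; exact ht.trans (hlen b h2)) (by rw [mul_neg, abs_neg]; exact hv)
    have h6 : ((z.1 + t, z.2 + Z.s i₀ * t).1 + -t, (z.1 + t, z.2 + Z.s i₀ * t).2 + Z.s i₀ * -t)
        = z := by
      ext <;> simp
    rw [h6, sub_add_cancel] at h5
    have h7 : z ∈ Z.bx (-θ) b := by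
      rcases (hz k ⟨p, hp, q, hq, r, hr, hpqr⟩).1 b hb with h | h
      · exact h
      · exact absurd h5 h
    refine ⟨h7, ?_⟩
    have h8 := bx_move Z (σ := Z.s i₀) (t := t) (δ := δ) h7 (ht.trans (hlen b h2)) hv
    have h9 : -θ + δ = -(θ - δ) := by ring
    rwa [h9] at h8
  refine ⟨?_, ?_⟩
  · intro k hk
    refine ⟨?_, ?_, ?_⟩
    · intro b hb
      by_cases hzt : (z.1 + t, z.2 + Z.s i₀ * t) ∈ Z.bx (θ - δ) b
      · exact Or.inl (hback k hk b hb hzt).2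
      · exact Or.inr hzt
    · intro hact
      obtain ⟨b, hb, hzb⟩ := (mem_act Z).mp hact
      have h1 := hback k hk b hb (bx_mono Z (by linarith) b hzb)
      exact (hz k hk).2.mp ((mem_act Z).mpr ⟨b, hb, bx_mono Z (by linarith) b h1.1⟩)
    · intro hkP
      obtain ⟨b, hb, _, hzt⟩ := hstay k hkP
      exact (mem_act Z).mpr ⟨b, hb, bx_mono Z (by linarith) b hzt⟩
  · intro i hi
    obtain ⟨b, hb, hzb, hzt⟩ := hstay i hi
    rw [← hb, a_eq Z hdisj (bx_mono Z (by linarith) b hzt),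
      a_eq Z hdisj (bx_mono Z (by linarith) b hzb)]

end Vale.Agent.P112.H409
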