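import Mathlib

/-!
# Stability of a slope component along a short segment

Tubes are indexed by `i`; `s i` is the slope, `ρ i z` the gauge of the tube at the point `z`
(the tube dilated by `σ` is `ρ i z ≤ σ`), `l i z` the local length scale.  Moving along a segment
of slope `s'` changes the gauge slowly; two different tubes which are active at a common point are
separated.  Then the set of active tubes with slope near a set `P` of active tubes does not change
along short segments, unless the starting point is near the edge of some tube.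
-/

namespace Vale.Agent.P112.H409

/-- The point `z` moved by `t` along a line of slope `s'`. -/
def mv (z : ℝ × ℝ) (s' t : ℝ) : ℝ × ℝ := (z.1 + t, z.2 + t * s')

@[simp] lemma mv_zero (z : ℝ × ℝ) (s' : ℝ) : mv z s' 0 = z := by
  simp [mv]

@[simp] lemma mv_mv (z : ℝ × ℝ) (s' t u : ℝ) : mv (mv z s' t) s' u = mv z s' (t + u) := by
  simp only [mv, Prod.mk.injEq]
  constructor <;> ring

/-- Increments of the gauges, separation of the active tubes. -/
structure Sys {ι : Type*} (s : ι → ℝ) (l ρ : ι → ℝ × ℝ → ℝ) (κ Q : ℝ) : Prop where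
  κ_nonneg : 0 ≤ κ
  Q_pos : 0 < Q
  l_pos : ∀ i z, 0 < l i z
  inc : ∀ i z s' t, |t| ≤ l i z → |ρ i (mv z s' t) - ρ i z| ≤ |t| * (1 / l i z + κ * |s' - s i|)
  sep : ∀ i j z, i ≠ j → ρ i z ≤ 2 → ρ j z ≤ 2 → Q ≤ |s i - s j| * l i z

variable {ι : Type*} {s : ι → ℝ} {l ρ : ι → ℝ × ℝ → ℝ} {κ Q : ℝ}

/-- One tube with a lower bound for its scale moves little. -/
lemma Sys.move (h : Sys s l ρ κ Q) {i : ι} {z : ℝ × ℝ} {s' t X W ε : ℝ}
    (hW : 0 < W) (hl : Q ≤ W * l i z) (hs : |s' - s i| ≤ W) (ht : |t| ≤ X) (hXW : X * W ≤ Q)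
    (hε : X * W * (1 / Q + κ) ≤ ε) : |ρ i (mv z s' t) - ρ i z| ≤ ε := by
  have hl0 := h.l_pos i z
  have hQ := h.Q_pos
  have hX : 0 ≤ X := (abs_nonneg t).trans ht
  have h1 : 1 / l i z ≤ W * (1 / Q) := by
    rw [mul_one_div, div_le_div_iff₀ hl0 hQ]
    linarith
  have h2 : |t| ≤ l i z := by
    have : X * W ≤ W * l i z := hXW.trans hl
    have : W * X ≤ W * l i z := by linarith
    exact ht.trans (le_of_mul_le_mul_left this hW)
  calc |ρ i (mv z s' t) - ρ i z| ≤ |t| * (1 / l i z + κ * |s' - s i|) := h.inc i z s' t h2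
    _ ≤ X * (W * (1 / Q) + κ * W) := by
        apply mul_le_mul ht _ _ hX
        · exact add_le_add h1 (mul_le_mul_of_nonneg_left hs h.κ_nonneg)
        · have := mul_nonneg h.κ_nonneg (abs_nonneg (s' - s i))
          positivity
    _ = X * W * (1 / Q + κ) := by ring
    _ ≤ ε := hε

/-- **Stability.**  `P` is a set of at least two tubes active at `z`, no other active tube has
its slope within `D` of `P`, and `z` is not near the edge of a tube.  Then the same holds along the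
segment of slope `s'` and length `X`. -/
theorem Sys.stab (h : Sys s l ρ κ Q) {P : Set ι} {z : ℝ × ℝ} {s' t X W D ε σ : ℝ}
    (hW : 0 < W) (hσ : σ ≤ 2) (ht : |t| ≤ X) (hXW : X * W ≤ Q)
    (hε : X * W * (1 / Q + κ) ≤ ε)
    (h2 : ∀ i ∈ P, ∃ j ∈ P, j ≠ i)
    (hd : ∀ i ∈ P, ∀ j, (∃ k ∈ P, |s j - s k| ≤ D) → |s i - s j| ≤ W)
    (hs : ∀ j, (∃ k ∈ P, |s j - s k| ≤ D) → |s' - s j| ≤ W) (hD : 0 ≤ D)
    (hb : ∀ i, (∃ k ∈ P, |s i - s k| ≤ D) → ε < |ρ i z - σ|)
    (hP : ∀ i ∈ P, ρ i z ≤ σ)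
    (hmax : ∀ j, (∃ k ∈ P, |s j - s k| ≤ D) → ρ j z ≤ σ → j ∈ P) :
    (∀ i ∈ P, ρ i (mv z s' t) ≤ σ) ∧
      ∀ j, (∃ k ∈ P, |s j - s k| ≤ D) → ρ j (mv z s' t) ≤ σ → j ∈ P := by
  have hself : ∀ i ∈ P, ∃ k ∈ P, |s i - s k| ≤ D := fun i hi => ⟨i, hi, by simpa using hD⟩
  have hact : ∀ i ∈ P, ρ i (mv z s' t) ≤ σ := by
    intro i hi
    obtain ⟨j, hj, hji⟩ := h2 i hi
    have h3 : Q ≤ |s i - s j| * l i z :=
      h.sep i j z (Ne.symm hji) ((hP i hi).trans hσ) ((hP j hj).trans hσ)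
    have h4 : Q ≤ W * l i z :=
      h3.trans (mul_le_mul_of_nonneg_right (hd i hi j (hself j hj)) (h.l_pos i z).le)
    have h5 := h.move hW h4 (hs i (hself i hi)) ht hXW hε
    have h6 := hb i (hself i hi)
    have h7 : ρ i z - σ ≤ 0 := by linarith [hP i hi]
    rw [abs_of_nonpos h7] at h6
    have h8 := (abs_le.mp h5).2
    linarith
  refine ⟨hact, ?_⟩
  intro j hj hjσ
  by_contra hjP
  obtain ⟨k, hk, hkj⟩ := hj
  have hjk : j ≠ k := fun e => hjP (e ▸ hk)
  have h3 : Q ≤ |s j - s k| * l j (mv z s' t) :=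
    h.sep j k (mv z s' t) hjk (hjσ.trans hσ) ((hact k hk).trans hσ)
  have h4 : Q ≤ W * l j (mv z s' t) := by
    refine h3.trans (mul_le_mul_of_nonneg_right ?_ (h.l_pos j _).le)
    rw [abs_sub_comm]
    exact hd k hk j ⟨k, hk, hkj⟩
  have h5 : |ρ j (mv (mv z s' t) s' (-t)) - ρ j (mv z s' t)| ≤ ε :=
    h.move hW h4 (hs j ⟨k, hk, hkj⟩) (by simpa using ht) hXW hε
  rw [mv_mv, add_neg_cancel, mv_zero] at h5
  have h6 := hb j ⟨k, hk, hkj⟩
  have h7 : σ < ρ j z := by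
    by_contra hc
    exact hjP (hmax j ⟨k, hk, hkj⟩ (not_lt.mp hc))
  rw [abs_of_pos (by linarith)] at h6
  have h8 := (abs_le.mp h5).2
  linarith

end Vale.Agent.P112.H409
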